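import Vale.Agent.P216.H971B.Props

/-!
# P216-B, row R7: conjugacy classes of `π₁` and path components of the free loop space

If `π₁(M, x₀)` has infinitely many conjugacy classes, then the loop space `LM M = C(ℝ/ℤ, M)` has
infinitely many path components.
-/

namespace Vale.Agent.P216.H923B2.R7

open Vale.Agent.P216.L250 CategoryTheory

variable {M : Type} [MetricSpace M]

/-- The standard loop of the circle. -/
def std : Path ((0 : ℝ) : AddCircle (1 : ℝ)) ((0 : ℝ) : AddCircle (1 : ℝ)) where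
  toFun t := ((t : ℝ) : AddCircle (1 : ℝ))
  continuous_toFun := (AddCircle.continuous_mk' 1).comp continuous_subtype_val
  source' := by simp
  target' := by simp

/-- The standard loop, as an arrow of the fundamental groupoid. -/
def stdA : FundamentalGroupoid.mk ((0 : ℝ) : AddCircle (1 : ℝ)) ⟶
    FundamentalGroupoid.mk ((0 : ℝ) : AddCircle (1 : ℝ)) := Path.Homotopic.Quotient.mk std

/-- The based loop of a free loop. -/
noncomputable def lp (g : LM M) : FundamentalGroupoid.mk (g ((0 : ℝ) : AddCircle (1 : ℝ))) ⟶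
    FundamentalGroupoid.mk (g ((0 : ℝ) : AddCircle (1 : ℝ))) :=
  (FundamentalGroupoid.map g).map stdA

/-- Conjugation by an arrow. -/
noncomputable def cj {x y : M} (a : FundamentalGroupoid.mk x ⟶ FundamentalGroupoid.mk y)
    (s : FundamentalGroupoid.mk y ⟶ FundamentalGroupoid.mk y) : FundamentalGroup M x :=
  a ≫ s ≫ Groupoid.inv a

theorem cj_conj {x y z : M} (a : FundamentalGroupoid.mk x ⟶ FundamentalGroupoid.mk y)
    (b : FundamentalGroupoid.mk x ⟶ FundamentalGroupoid.mk z)
    (s : FundamentalGroupoid.mk y ⟶ FundamentalGroupoid.mk y)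
    (t : FundamentalGroupoid.mk z ⟶ FundamentalGroupoid.mk z)
    (e : FundamentalGroupoid.mk y ⟶ FundamentalGroupoid.mk z) (h : s ≫ e = e ≫ t) :
    IsConj (cj a s) (cj b t) := by
  rw [isConj_iff]
  refine ⟨(a ≫ e ≫ Groupoid.inv b : FundamentalGroupoid.mk x ⟶ FundamentalGroupoid.mk x), ?_⟩
  rw [mul_inv_eq_iff_eq_mul]
  show (a ≫ s ≫ Groupoid.inv a) ≫ (a ≫ e ≫ Groupoid.inv b)
    = (a ≫ e ≫ Groupoid.inv b) ≫ (b ≫ t ≫ Groupoid.inv b)
  have h1 : Groupoid.inv a ≫ a = 𝟙 _ := Groupoid.inv_comp a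
  have h2 : Groupoid.inv b ≫ b = 𝟙 _ := Groupoid.inv_comp b
  simp only [Category.assoc]
  rw [← Category.assoc (Groupoid.inv a) a, h1, Category.id_comp,
    ← Category.assoc (Groupoid.inv b) b, h2, Category.id_comp, ← Category.assoc s e, h,
    Category.assoc]

/-- The conjugacy class of a free loop. -/
noncomputable def cls [PathConnectedSpace M] (x₀ : M) (g : LM M) :
    ConjClasses (FundamentalGroup M x₀) :=
  ConjClasses.mk (cj (Path.Homotopic.Quotient.mk
    (PathConnectedSpace.somePath x₀ (g ((0 : ℝ) : AddCircle (1 : ℝ))))) (lp g))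

theorem cls_eq [PathConnectedSpace M] (x₀ : M) {g g' : LM M} (h : Joined g g') :
    cls x₀ g = cls x₀ g' := by
  obtain ⟨γ⟩ := h
  let H : ContinuousMap.Homotopy g g' :=
    { toFun := fun p => γ p.1 p.2
      continuous_toFun := by fun_prop
      map_zero_left := fun x => by simp
      map_one_left := fun x => by simp }
  rw [cls, cls, ConjClasses.mk_eq_mk_iff_isConj]
  exact cj_conj _ _ _ _ _ ((FundamentalGroupoidFunctor.homotopicMapsNatIso H).naturality stdA)

/-- A based loop as a free loop. -/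
noncomputable def ofLoop {x₀ : M} (γ : Path x₀ x₀) : LM M :=
  ⟨AddCircle.liftIco 1 0 γ.extend, AddCircle.liftIco_continuous (by simp)
    γ.continuous_extend.continuousOn⟩

theorem ofLoop_apply {x₀ : M} (γ : Path x₀ x₀) (t : unitInterval) :
    ofLoop γ ((t : ℝ) : AddCircle (1 : ℝ)) = γ t := by
  rcases eq_or_lt_of_le t.2.2 with h | h
  · have h1 : t = 1 := Subtype.ext h
    subst h1
    have h2 : (((1 : unitInterval) : ℝ) : AddCircle (1 : ℝ)) = ((0 : ℝ) : AddCircle (1 : ℝ)) := by
      simp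
    rw [h2]
    show AddCircle.liftIco 1 0 γ.extend _ = _
    rw [AddCircle.liftIco_zero_coe_apply (by simp)]
    simp
  · show AddCircle.liftIco 1 0 γ.extend _ = _
    rw [AddCircle.liftIco_zero_coe_apply ⟨t.2.1, h⟩]
    simp

theorem conj_aux {x₀ y : M} (h : x₀ = y) (α : Path y y) (γ : Path x₀ x₀) (hα : ∀ t, α t = γ t)
    (a : FundamentalGroupoid.mk x₀ ⟶ FundamentalGroupoid.mk y) :
    IsConj (cj a (Path.Homotopic.Quotient.mk α)) (Path.Homotopic.Quotient.mk γ) := by
  subst h
  obtain rfl : α = γ := by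
    ext t
    exact hα t
  have h1 := cj_conj a (𝟙 _) (Path.Homotopic.Quotient.mk α) (Path.Homotopic.Quotient.mk α) (𝟙 _)
    (by rw [Category.comp_id, Category.id_comp])
  have h2 : cj (𝟙 (FundamentalGroupoid.mk x₀)) (Path.Homotopic.Quotient.mk α)
      = Path.Homotopic.Quotient.mk α := by
    have h3 : Groupoid.inv (𝟙 (FundamentalGroupoid.mk x₀)) = 𝟙 (FundamentalGroupoid.mk x₀) := by
      simp
    rw [cj, h3, Category.id_comp, Category.comp_id]
  rwa [h2] at h1

theorem cls_surjective [PathConnectedSpace M] (x₀ : M) (c : ConjClasses (FundamentalGroup M x₀)) :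
    ∃ g : LM M, cls x₀ g = c := by
  obtain ⟨p, rfl⟩ := ConjClasses.exists_rep c
  obtain ⟨γ, rfl⟩ := Path.Homotopic.Quotient.mk_surjective p
  refine ⟨ofLoop γ, ?_⟩
  rw [cls, ConjClasses.mk_eq_mk_iff_isConj]
  refine conj_aux (x₀ := x₀) (y := ofLoop γ ((0 : ℝ) : AddCircle (1 : ℝ))) ?_
    (std.map (ofLoop γ).continuous) γ ?_ _
  · have := ofLoop_apply γ 0
    simpa using this.symm
  · intro t
    exact ofLoop_apply γ t

end Vale.Agent.P216.H923B2.R7

namespace Vale.Agent.P216.H923B2

open Vale.Agent.P216.L250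

/-- **R7**. -/
theorem r7Goal : H971B.R7Goal := by
  intro M _ _ _ x₀ hinf
  have hs : Function.Surjective (Quotient.lift (R7.cls x₀) fun _ _ h => R7.cls_eq x₀ h :
      ZerothHomotopy (LM M) → ConjClasses (FundamentalGroup M x₀)) := by
    intro c
    obtain ⟨g, hg⟩ := R7.cls_surjective x₀ c
    exact ⟨Quotient.mk _ g, hg⟩
  exact Infinite.of_surjective _ hs

end Vale.Agent.P216.H923B2
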