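import Mathlib

/-!
# P216-B, R1: the arithmetic of lengths and classes

Finitely many prime closed geodesics `i : ι` of lengths `l i`, classes `cl i m` of their iterates,
infinitely many classes, `mu` the minimal length of a class.
-/

namespace Vale.Agent.P216.H923B2.R1abs

variable {ι Ω : Type} [Finite ι]

/-- Pigeonhole. -/
theorem pigeon [Infinite Ω] (o : Ω) (cl : ι → ℕ → Ω) (l : ι → ℝ) (mu : Ω → ℝ)
    (h1 : ∀ ω, ω ≠ o → ∃ i m, 1 ≤ m ∧ cl i m = ω ∧ mu ω = m * l i) :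
    ∃ i, {m : ℕ | 1 ≤ m ∧ mu (cl i m) = m * l i}.Infinite := by
  by_contra hcon
  push Not at hcon
  choose i m hm hcl hmu using h1
  have hfin : (⋃ j : ι, (fun m => ((j, m) : ι × ℕ)) ''
      {m : ℕ | 1 ≤ m ∧ mu (cl j m) = m * l j}).Finite :=
    Set.finite_iUnion fun j => (hcon j).image _
  have hinf : (Set.univ \ {o} : Set Ω).Infinite :=
    Set.infinite_univ.sdiff (Set.finite_singleton o)
  apply hinf
  classical
  obtain ⟨x, hx⟩ := hinf.nonempty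
  let F : Ω → ι × ℕ := fun ω => if h : ω ≠ o then (i ω h, m ω h) else (i x hx.2, m x hx.2)
  refine Set.Finite.of_finite_image (f := F) (hfin.subset ?_) ?_
  · rintro _ ⟨ω, hω, rfl⟩
    have h : ω ≠ o := hω.2
    have hF : F ω = (i ω h, m ω h) := dif_pos h
    rw [hF]
    refine Set.mem_iUnion.2 ⟨i ω h, m ω h, ⟨hm ω h, ?_⟩, rfl⟩
    rw [hcl ω h]
    exact hmu ω h
  · intro ω hω ω' hω' hh
    have h : ω ≠ o := hω.2
    have h' : ω' ≠ o := hω'.2
    have hF : F ω = (i ω h, m ω h) := dif_pos h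
    have hF' : F ω' = (i ω' h', m ω' h') := dif_pos h'
    rw [hF, hF', Prod.mk.injEq] at hh
    rw [← hcl ω h, ← hcl ω' h', hh.1, hh.2]

omit [Finite ι] in
/-- Infinitely many sharp multiples give all of them. -/
theorem sharp (cl : ι → ℕ → Ω) (l : ι → ℝ) (mu : Ω → ℝ) (hl : ∀ i, 0 < l i)
    (h2 : ∀ i m, 1 ≤ m → mu (cl i m) ≤ m * l i)
    (h3 : ∀ i m, 1 ≤ m → ∀ r, ∃ C : ℝ, ∀ q : ℕ, mu (cl i (q * m + r)) ≤ q * mu (cl i m) + C)
    (i : ι) (hi : {m : ℕ | 1 ≤ m ∧ mu (cl i m) = m * l i}.Infinite) (m : ℕ) (hm : 1 ≤ m) :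
    mu (cl i m) = m * l i := by
  refine le_antisymm (h2 i m hm) ?_
  by_contra hlt
  push Not at hlt
  choose C hC using fun r => h3 i m hm r
  set δ : ℝ := m * l i - mu (cl i m) with hδ
  have hδ0 : 0 < δ := by rw [hδ]; linarith
  -- a common constant
  obtain ⟨K, hK⟩ : ∃ K : ℝ, ∀ r < m, C r ≤ K := by
    refine ⟨∑ r ∈ Finset.range m, |C r|, fun r hr => (le_abs_self _).trans ?_⟩
    exact Finset.single_le_sum (f := fun r => |C r|) (fun _ _ => abs_nonneg _)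
      (Finset.mem_range.2 hr)
  obtain ⟨Q, hQ⟩ := exists_nat_gt (K / δ)
  obtain ⟨n, hn, hnQ⟩ := hi.exists_gt (Q * m + m)
  have h5 := hC (n % m) (n / m)
  have h6 : n / m * m + n % m = n := by rw [mul_comm]; exact Nat.div_add_mod n m
  rw [h6, hn.2] at h5
  have h7 : C (n % m) ≤ K := hK _ (Nat.mod_lt _ hm)
  have h8 : (n : ℝ) = (n / m : ℕ) * m + (n % m : ℕ) := by
    have : ((n / m * m + n % m : ℕ) : ℝ) = (n : ℝ) := by rw [h6]
    push_cast at this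
    linarith
  have h9 : Q ≤ n / m := by
    rw [Nat.le_div_iff_mul_le hm]
    omega
  have h10 : ((Q : ℕ) : ℝ) ≤ ((n / m : ℕ) : ℝ) := by exact_mod_cast h9
  have h11 : K < Q * δ := by rwa [div_lt_iff₀ hδ0] at hQ
  have h12 : 0 ≤ ((n % m : ℕ) : ℝ) * l i := mul_nonneg (Nat.cast_nonneg _) (hl i).le
  have h13 : ((n / m : ℕ) : ℝ) * δ ≤ K := by
    have : (n : ℝ) * l i = ((n / m : ℕ) : ℝ) * (m * l i) + ((n % m : ℕ) : ℝ) * l i := by
      rw [h8]; ring
    rw [hδ]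
    nlinarith
  have h14 : (Q : ℝ) * δ ≤ ((n / m : ℕ) : ℝ) * δ := mul_le_mul_of_nonneg_right h10 hδ0.le
  linarith

/-- **The arithmetic half of R1.** -/
theorem r1_abs [Infinite Ω] (o : Ω) (cl : ι → ℕ → Ω) (l : ι → ℝ) (mu : Ω → ℝ)
    (hl : ∀ i, 0 < l i)
    (h1 : ∀ ω, ω ≠ o → ∃ i m, 1 ≤ m ∧ cl i m = ω ∧ mu ω = m * l i)
    (h2 : ∀ i m, 1 ≤ m → mu (cl i m) ≤ m * l i)
    (h3 : ∀ i m, 1 ≤ m → ∀ r, ∃ C : ℝ, ∀ q : ℕ, mu (cl i (q * m + r)) ≤ q * mu (cl i m) + C)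
    (h4 : ∀ i j m n, 1 ≤ m → 1 ≤ n → cl i m = cl j n → ∀ k, 1 ≤ k →
      cl i (k * m) = cl j (k * n)) :
    ∃ i, (∀ m, 1 ≤ m → mu (cl i m) = m * l i) ∧ ∀ C : ℝ, ∃ m0 : ℕ, ∀ m ≥ m0, 1 ≤ m →
      ∀ j n, 1 ≤ n → cl j n = cl i m → n * l j ≤ m * l i ∨ m * l i + C < n * l j := by
  obtain ⟨i, hi⟩ := pigeon o cl l mu h1
  have hsh := sharp cl l mu hl h2 h3 i hi
  refine ⟨i, hsh, fun C => ?_⟩
  -- for each `j` a bound
  have key : ∀ j, ∃ m0 : ℕ, ∀ m ≥ m0, 1 ≤ m → ∀ n, 1 ≤ n → cl j n = cl i m →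
      n * l j ≤ m * l i ∨ m * l i + C < n * l j := by
    intro j
    by_cases hex : ∃ m n, 1 ≤ m ∧ 1 ≤ n ∧ cl j n = cl i m ∧ (m : ℝ) * l i < n * l j
    · obtain ⟨a, b, ha, hb, hab, hlt⟩ := hex
      -- ratio
      have ha0 : (0 : ℝ) < a := by exact_mod_cast ha
      have hb0 : (0 : ℝ) < b := by exact_mod_cast hb
      set δ : ℝ := (b * l j - a * l i) / a with hδ
      have hδ0 : 0 < δ := div_pos (by linarith) ha0
      obtain ⟨m0, hm0⟩ := exists_nat_gt (C / δ)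
      refine ⟨m0, fun m hm hm1 n hn hnm => Or.inr ?_⟩
      have e1 : cl i (n * a) = cl j (n * b) := h4 i j a b ha hb hab.symm n hn
      have e2 : cl j (b * n) = cl i (b * m) := h4 j i n m hn hm1 hnm b hb
      have e3 : cl i (n * a) = cl i (b * m) := by rw [e1, ← e2, mul_comm]
      have e4 := hsh (n * a) (Nat.one_le_iff_ne_zero.2 (by positivity))
      have e5 := hsh (b * m) (Nat.one_le_iff_ne_zero.2 (by positivity))
      rw [e3, e5] at e4
      have e6 : ((b * m : ℕ) : ℝ) = ((n * a : ℕ) : ℝ) := mul_right_cancel₀ (hl i).ne' e4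
      push_cast at e6
      -- `n = b m / a`
      have e7 : (n : ℝ) = b * m / a := by
        rw [eq_div_iff ha0.ne']
        exact e6.symm
      have e8 : (n : ℝ) * l j = m * l i + m * δ := by
        rw [e7, hδ]
        field_simp
        ring
      rw [e8]
      have e9 : C < m0 * δ := by rwa [div_lt_iff₀ hδ0] at hm0
      have e10 : (m0 : ℝ) * δ ≤ m * δ := by
        apply mul_le_mul_of_nonneg_right _ hδ0.le
        exact_mod_cast hm
      linarith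
    · refine ⟨0, fun m _ hm1 n hn hnm => Or.inl ?_⟩
      by_contra hlt
      push Not at hlt
      exact hex ⟨m, n, hm1, hn, hnm, hlt⟩
  choose m0 hm0 using key
  obtain ⟨K, hK⟩ := (Set.finite_range m0).bddAbove
  exact ⟨K, fun m hm hm1 j n hn hnm => hm0 j m ((hK (Set.mem_range_self j)).trans hm) hm1 n hn hnm⟩

end Vale.Agent.P216.H923B2.R1abs
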