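import Vale.Agent.P216.H923B2.Gam
import Vale.Agent.P216.H923B2.R1abs
import Vale.Agent.P216.V893.Mu893
import Vale.Agent.P216.V893.R2b
import Vale.Agent.P216.H494.Orbit

/-!
# P216-B, row R1: translation of the arithmetic half
-/

set_option linter.all false

open Set Filter Topology

namespace Vale.Agent.P216.H923B2

open Vale.Agent.P216.L250 Vale.Agent.P216.H494 Vale.Agent.P216.H971B

variable {M : Type} [MetricSpace M]

theorem joined_iter {x y : LM M} (p : ℕ) (h : Joined x y) : Joined (iter p x) (iter p y) :=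
  h.map (ContinuousMap.continuous_precomp _)

theorem joined_rev {x y : LM M} (h : Joined x y) : Joined (L250.rev x) (L250.rev y) :=
  h.map (ContinuousMap.continuous_precomp _)

theorem joined_rot {s : ℝ} (h0 : 0 ≤ s) {g : LM M} (hg : g ∈ XE M s) (β : ℝ) :
    Joined (rot β g) g := by
  refine Joined.symm ⟨⟨⟨fun u : unitInterval => rot ((u : ℝ) * β) g, ?_⟩, ?_, ?_⟩⟩
  · exact (continuous_rot_of_mem h0 hg).comp (continuous_subtype_val.mul continuous_const)
  · simp
  · simp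

/-- The closed geodesics of length `a` are joined to iterates of the prime ones. -/
theorem geo_joined (G : GeoList M) {a : ℝ} (ha : 0 < a) {x : LM M} (hx : x ∈ Geo1 G a) :
    ∃ (i : G.ι) (b : Bool) (n : ℕ), 1 ≤ n ∧ a = n * G.ℓ i ∧ Joined (iter n (gam G i b)) x := by
  obtain ⟨s, hs⟩ : ∃ s : Bool, x ∈ G.KK (sg s) a := by
    rcases hx with h | h
    · exact ⟨true, h⟩
    · exact ⟨false, h⟩
  obtain ⟨j, b, h⟩ := hs
  have he := sg_or s
  have hper : Function.Periodic (G.c j) a := by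
    have := KK_period he ha h (r := 1) fun t => fn_periodic x t
    rwa [mul_one] at this
  obtain ⟨m, hm⟩ := G.prime j _ hper
  have h0 := G.ℓ_pos j
  have hm0 : 0 < m := by
    by_contra hcon
    push Not at hcon
    have : (m : ℝ) ≤ 0 := by exact_mod_cast hcon
    nlinarith
  obtain ⟨n, rfl⟩ := Int.eq_ofNat_of_zero_le hm0.le
  have hn : 1 ≤ n := by exact_mod_cast hm0
  have ha2 : a = n * G.ℓ j := by simpa using hm
  refine ⟨j, s, n, hn, ha2, ?_⟩
  have hmem := iter_gam_mem_KK G j s n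
  rw [← ha2] at hmem
  have hx2 : x = rot (sg s * b / a) (iter n (gam G j s)) := by
    refine ext_fn fun t => ?_
    rw [h, fn_rot, fn_iter, fn_gam]
    congr 1
    have e1 : sg s * G.ℓ j * (n * (t + sg s * b / a)) = sg s * (n * G.ℓ j) * t
        + (sg s * sg s) * b * ((n * G.ℓ j) / a) := by ring
    rw [e1, ← ha2, sgn_mul_self he, div_self ha.ne']
    ring
  rw [hx2]
  exact (joined_rot ha.le (KK_subset_XE he ha.le hmem) _).symm

theorem rev_mem_XE {s : ℝ} {g : LM M} (hg : g ∈ XE M s) : L250.rev g ∈ XE M s := by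
  rw [mem_XE]
  have := HasE.rev hg
  convert this using 1
  funext t
  simp

theorem rev_gam (G : GeoList M) (i : G.ι) (b : Bool) : L250.rev (gam G i b) = gam G i !b := by
  refine ext_fn fun t => ?_
  rw [fn_rev, fn_gam, fn_gam]
  congr 1
  cases b <;> simp [sg]

theorem rev_mem_Geo1 {G : GeoList M} {a : ℝ} {x : LM M} (hx : x ∈ Geo1 G a) :
    L250.rev x ∈ Geo1 G a := by
  rcases hx with h | h
  · exact Or.inr (rev_mem_KK h)
  · have := rev_mem_KK h
    rw [neg_neg] at this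
    exact Or.inl this

/-- the based conjugation bound (126) -/
def ConjBound (M : Type) [MetricSpace M] : Prop :=
  ∀ (x g : LM M) (m : ℕ), 1 ≤ m → ∀ K Lg : ℝ, 0 ≤ K →
    (∀ s t, dist (fn x s) (fn x t) ≤ K * |s - t|) →
    (∀ s t, dist (fn g s) (fn g t) ≤ Lg * |s - t|) → Joined x (iter m g) → ∀ r : ℕ,
    ∃ C : ℝ, 0 ≤ C ∧ ∀ q : ℕ, ∃ y : LM M, Joined y (iter (q * m + r) g) ∧ y ∈ XE M (q * K + C)

/-- every loop is joined to a loop of finite energy (126) -/
def FinGoal (M : Type) [MetricSpace M] : Prop :=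
  ∀ c : LM M, ∃ T, 0 ≤ T ∧ ∃ x ∈ XE M T, Joined x c

/-- **(C)**: the shortest loops of a class. -/
theorem cGoal [CompactSpace M] {ρ : ℝ} (hρ : 0 < ρ) (h : LS.UniqSeg M ρ) (G : GeoList M) :
    CGoal M G := by
  intro c a ha ⟨x, hx, hj⟩ hmin
  have h1 := V893.Dsc.r2bGoal M ρ hρ h G c a ha hmin ⟨hx, hj⟩
  obtain ⟨i, b, n, hn, han, hjn⟩ := geo_joined G ha h1
  exact ⟨i, b, n, hn, han, hjn.trans hj⟩

/-- **R1 for one list.** -/
theorem r1_of [CompactSpace M] [PathConnectedSpace M] {ρ : ℝ} (hρ : 0 < ρ)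
    (h : LS.UniqSeg M ρ) (G : GeoList M) (hC : CGoal M G) (hcb : ConjBound M)
    (hfin : FinGoal M) (hinf : Infinite (ZerothHomotopy (LM M))) :
    ∃ (c : LM M) (L : ℝ), 0 < L ∧ c ∈ G.KK 1 L ∧
    (∀ m : ℕ, 1 ≤ m → ∀ x, Joined x (iter m c) → ∀ T, 0 ≤ T → x ∈ XE M T → m * L ≤ T) ∧
    ∀ C : ℝ, ∃ m0 : ℕ, ∀ m ≥ m0, ∀ a : ℝ, m * L < a → a ≤ m * L + C →
      ∀ x ∈ Geo1 G a, ¬ Joined x (iter m c) := by
  -- the classes
  let cls : LM M → ZerothHomotopy (LM M) := fun g => Quotient.mk _ g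
  have hcls : ∀ g g' : LM M, cls g = cls g' ↔ Joined g g' := fun g g' => Quotient.eq
  -- the minimal length
  choose mu' hmu0 hmu1 hmu2 using fun c : LM M => V893.Dsc.exists_mu hρ h c (hfin c)
  let mu : ZerothHomotopy (LM M) → ℝ := fun ω => mu' ω.out
  have hout : ∀ g : LM M, Joined (cls g).out g := fun g => (hcls _ _).1 (Quotient.out_eq _)
  have m0 : ∀ ω, 0 ≤ mu ω := fun ω => hmu0 _
  have m1 : ∀ g, ∃ x ∈ XE M (mu (cls g)), Joined x g := by
    intro g
    obtain ⟨x, hx, hj⟩ := hmu1 (cls g).out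
    exact ⟨x, hx, hj.trans (hout g)⟩
  have m2 : ∀ g x, Joined x g → ∀ T, 0 ≤ T → x ∈ XE M T → mu (cls g) ≤ T := fun g x hx T hT hxT =>
    hmu2 _ x (hx.trans (hout g).symm) T hT hxT
  obtain ⟨x₀⟩ := (inferInstance : Nonempty M)
  let o : ZerothHomotopy (LM M) := cls (ContinuousMap.const _ x₀)
  have hconst : (ContinuousMap.const (AddCircle (1 : ℝ)) x₀ : LM M) ∈ XE M 0 := by
    rw [mem_XE]
    refine ⟨fun _ => 0, fun s t hst => ?_, fun t => by simp⟩
    show dist x₀ x₀ ^ 2 ≤ _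
    simp
  have := G.fin
  let cl : G.ι × Bool → ℕ → ZerothHomotopy (LM M) := fun i m => cls (iter m (gam G i.1 i.2))
  have hlip : ∀ (i : G.ι) (b : Bool) (n : ℕ) (s t : ℝ), dist (fn (iter n (gam G i b)) s)
      (fn (iter n (gam G i b)) t) ≤ (n * G.ℓ i) * |s - t| := fun i b n s t =>
    KK_dist_le (sg_or b) (mul_nonneg n.cast_nonneg (G.ℓ_pos i).le) (iter_gam_mem_KK G i b n) s t
  obtain ⟨⟨i, b⟩, hsharp, hgap⟩ := R1abs.r1_abs o cl (fun i => G.ℓ i.1) mu
    (fun i => G.ℓ_pos i.1)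
    (by
      intro ω hω
      obtain ⟨c, rfl⟩ := Quotient.exists_rep ω
      have hpos : 0 < mu (cls c) := by
        rcases (m0 (cls c)).lt_or_eq with h1 | h1
        · exact h1
        · exfalso
          apply hω
          obtain ⟨x, hx, hj⟩ := m1 c
          rw [← h1] at hx
          exact (hcls _ _).2 (hj.symm.trans (V893.Dsc.joined_of_XE_zero hx hconst))
      obtain ⟨i, b, n, hn, ha, hj⟩ := hC c (mu (cls c)) hpos (m1 c) fun x hx T hT hxT =>
        m2 c x hx T hT hxT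
      exact ⟨(i, b), n, hn, (hcls _ _).2 hj, ha⟩)
    (by
      intro i m hm
      exact m2 _ _ (Joined.refl _) _ (mul_nonneg m.cast_nonneg (G.ℓ_pos i.1).le)
        (iter_gam_mem_XE G i.1 i.2 m))
    (by
      intro i m hm r
      -- a Lipschitz shortest loop
      obtain ⟨x, hxj, hxL⟩ : ∃ x : LM M, Joined x (iter m (gam G i.1 i.2)) ∧
          ∀ s t, dist (fn x s) (fn x t) ≤ mu (cl i m) * |s - t| := by
        rcases (m0 (cl i m)).lt_or_eq with h1 | h1
        · obtain ⟨j, b, n, hn, ha, hj⟩ := hC (iter m (gam G i.1 i.2)) _ h1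
            (m1 _) fun x hx T hT hxT => m2 _ x hx T hT hxT
          refine ⟨_, hj, fun s t => ?_⟩
          rw [ha]
          exact hlip j b n s t
        · obtain ⟨x, hx, hj⟩ := m1 (iter m (gam G i.1 i.2))
          refine ⟨x, hj, fun s t => ?_⟩
          have hx' : x ∈ XE M 0 := by rw [h1]; exact hx
          rw [V893.Dsc.XE_zero hx' s t, dist_self]
          exact mul_nonneg (m0 _) (abs_nonneg _)
      have hg : ∀ s t, dist (fn (gam G i.1 i.2) s) (fn (gam G i.1 i.2) t) ≤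
          G.ℓ i.1 * |s - t| := fun s t =>
        KK_dist_le (sg_or i.2) (G.ℓ_pos i.1).le (gam_mem_KK G i.1 i.2) s t
      obtain ⟨C, hC0, hC1⟩ := hcb x (gam G i.1 i.2) m hm (mu (cl i m)) (G.ℓ i.1) (m0 _) hxL hg
        hxj r
      refine ⟨C, fun q => ?_⟩
      obtain ⟨y, hy1, hy2⟩ := hC1 q
      exact m2 _ y hy1 _ (add_nonneg (mul_nonneg q.cast_nonneg (m0 _)) hC0) hy2)
    (by
      intro i j m n hm hn hij k hk
      have h1 := joined_iter k ((hcls _ _).1 hij)
      rw [iter_iter, iter_iter] at h1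
      have h2 := (hcls _ _).2 h1
      rw [mul_comm m k, mul_comm n k] at h2
      exact h2)
  -- the statement for `gam G i b`
  have hL := G.ℓ_pos i
  have s1 : ∀ m : ℕ, 1 ≤ m → ∀ x, Joined x (iter m (gam G i b)) → ∀ T, 0 ≤ T → x ∈ XE M T →
      m * G.ℓ i ≤ T := by
    intro m hm x hx T hT hxT
    have h1 := m2 _ x hx T hT hxT
    have h2 : mu (cls (iter m (gam G i b))) = m * G.ℓ i := hsharp m hm
    rwa [h2] at h1
  have s2 : ∀ C : ℝ, ∃ m0 : ℕ, ∀ m ≥ m0, ∀ a : ℝ, m * G.ℓ i < a → a ≤ m * G.ℓ i + C →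
      ∀ x ∈ Geo1 G a, ¬ Joined x (iter m (gam G i b)) := by
    intro C
    obtain ⟨m0, hm0⟩ := hgap C
    refine ⟨max m0 1, fun m hm a ha1 ha2 x hx hj => ?_⟩
    have ha : 0 < a := lt_of_le_of_lt (mul_nonneg m.cast_nonneg hL.le) ha1
    obtain ⟨j, b', n, hn, han, hjn⟩ := geo_joined G ha hx
    have h1 : cl (j, b') n = cl (i, b) m := (hcls _ _).2 (hjn.trans hj)
    rcases hm0 m ((le_max_left _ _).trans hm) ((le_max_right _ _).trans hm) (j, b') n hn h1
      with h2 | h2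
    · have h3 : (n : ℝ) * G.ℓ j ≤ m * G.ℓ i := h2
      rw [← han] at h3
      linarith
    · have h3 : (m : ℝ) * G.ℓ i + C < n * G.ℓ j := h2
      rw [← han] at h3
      linarith
  -- orientation
  rcases b with _ | _
  · -- reverse
    refine ⟨gam G i true, G.ℓ i, hL, gam_mem_KK G i true, fun m hm x hx T hT hxT => ?_,
      fun C => ?_⟩
    · have h1 := joined_rev hx
      rw [rev_iter, rev_gam] at h1
      exact s1 m hm _ h1 T hT (rev_mem_XE hxT)
    · obtain ⟨m0, hm0⟩ := s2 C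
      refine ⟨m0, fun m hm a ha1 ha2 x hx hj => ?_⟩
      have h1 := joined_rev hj
      rw [rev_iter, rev_gam] at h1
      exact hm0 m hm a ha1 ha2 _ (rev_mem_Geo1 hx) h1
  · exact ⟨gam G i true, G.ℓ i, hL, gam_mem_KK G i true, s1, s2⟩

/-- **R1** from the based conjugation bound and the loops of finite energy. -/
theorem r1Goal_of (hcb : ∀ (M : Type) [MetricSpace M] [CompactSpace M] (ρ : ℝ), 0 < ρ →
      LS.UniqSeg M ρ → ConjBound M)
    (hfin : ∀ (M : Type) [MetricSpace M] [CompactSpace M] (ρ : ℝ), 0 < ρ →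
      LS.UniqSeg M ρ → FinGoal M) : H971B.R1Goal := by
  intro M _ _ _ ρ hρ h G hinf
  exact r1_of hρ h G (cGoal hρ h G) (hcb M ρ hρ h) (hfin M ρ hρ h) hinf

end Vale.Agent.P216.H923B2
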