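import Vale.Agent.P216.H971B.Props

/-!
# P216-B, R1: the prime closed geodesics as loops, both orientations
-/

set_option linter.all false

namespace Vale.Agent.P216.H923B2

open Vale.Agent.P216.L250 Vale.Agent.P216.H494

variable {M : Type} [MetricSpace M]

/-- The sign of an orientation. -/
def sg (b : Bool) : ℝ := if b then 1 else -1

theorem sg_or (b : Bool) : sg b = 1 ∨ sg b = -1 := by cases b <;> simp [sg]

theorem periodic_gam (G : GeoList M) (i : G.ι) (b : Bool) :
    Function.Periodic (fun t : ℝ => G.c i (sg b * G.ℓ i * t)) 1 := by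
  intro t
  have h := G.per i
  show G.c i (sg b * G.ℓ i * (t + 1)) = G.c i (sg b * G.ℓ i * t)
  rcases sg_or b with hb | hb
  · rw [hb, one_mul, mul_add, mul_one]
    exact h _
  · rw [hb]
    have e1 : -1 * G.ℓ i * (t + 1) = -1 * G.ℓ i * t - G.ℓ i := by ring
    rw [e1]
    exact h.sub_eq _

/-- The prime closed geodesic `i` with orientation `b`, as a loop. -/
def gam (G : GeoList M) (i : G.ι) (b : Bool) : LM M :=
  ofFn (fun t => G.c i (sg b * G.ℓ i * t))
    ((GeoList.continuous_c G i).comp (continuous_const.mul continuous_id)) (periodic_gam G i b)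

@[simp] theorem fn_gam (G : GeoList M) (i : G.ι) (b : Bool) (t : ℝ) :
    fn (gam G i b) t = G.c i (sg b * G.ℓ i * t) := rfl

theorem gam_mem_KK (G : GeoList M) (i : G.ι) (b : Bool) : gam G i b ∈ G.KK (sg b) (G.ℓ i) :=
  ⟨i, 0, fun t => by rw [fn_gam, add_zero]⟩

theorem iter_gam_mem_KK (G : GeoList M) (i : G.ι) (b : Bool) (n : ℕ) :
    iter n (gam G i b) ∈ G.KK (sg b) (n * G.ℓ i) := iter_mem_KK (gam_mem_KK G i b) n

theorem iter_gam_mem_XE (G : GeoList M) (i : G.ι) (b : Bool) (n : ℕ) :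
    iter n (gam G i b) ∈ XE M (n * G.ℓ i) :=
  KK_subset_XE (sg_or b) (mul_nonneg n.cast_nonneg (G.ℓ_pos i).le) (iter_gam_mem_KK G i b n)

/-- **(C)**, to be proved by 893. -/
def CGoal (M : Type) [MetricSpace M] (G : GeoList M) : Prop :=
  ∀ (c : LM M) (a : ℝ), 0 < a → (∃ x ∈ XE M a, Joined x c) →
    (∀ x, Joined x c → ∀ T, 0 ≤ T → x ∈ XE M T → a ≤ T) →
    ∃ (i : G.ι) (b : Bool) (n : ℕ), 1 ≤ n ∧ a = n * G.ℓ i ∧ Joined (iter n (gam G i b)) c

end Vale.Agent.P216.H923B2
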