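import Vale.Agent.P216.H923B2.R1
import Vale.Agent.P216.H126B.Homot2

/-!
# P216-B, row R1
-/

namespace Vale.Agent.P216.H923B2

/-- **R1**. -/
theorem r1Goal : H971B.R1Goal :=
  r1Goal_of
    (fun _ _ _ _ hρ h x g m hm K Lg hK hx hg hj r =>
      H126B.conj_bound hρ h x g m hm K Lg hK hx hg hj r)
    fun _ _ _ _ hρ h c => H126B.exists_fin hρ h c

end Vale.Agent.P216.H923B2
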